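import Vale.Agent.P277.Stmts
import Mathlib.Analysis.Calculus.InverseFunctionTheorem.ContDiff
import Mathlib.Analysis.Analytic.Order

/-!
# P277, package B1: hypersurfaces are countable unions of images of open sets
-/

open scoped Manifold ContDiff Topology
open Vale.Agent.P272.K Set Filter

noncomputable section

namespace Vale.Agent.P277.H622

/-- the map `z ↦ (f z, coordinates of z different from the i-th)` -/
def sliceMap {n : ℕ} (f : Cm (n + 1) → ℂ) (i : Fin (n + 1)) (z : Cm (n + 1)) : Cm (n + 1) :=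
  Fin.cons (f z) fun j => z (i.succAbove j)

/-- the derivative of `sliceMap` -/
def sliceLin {n : ℕ} (l : Cm (n + 1) →L[ℂ] ℂ) (i : Fin (n + 1)) : Cm (n + 1) →L[ℂ] Cm (n + 1) :=
  ContinuousLinearMap.pi (Fin.cons l fun j => ContinuousLinearMap.proj (i.succAbove j))

theorem sliceLin_injective {n : ℕ} {l : Cm (n + 1) →L[ℂ] ℂ} {i : Fin (n + 1)}
    (h : l (Pi.single i 1) ≠ 0) : Function.Injective (sliceLin l i) := by
  rw [injective_iff_map_eq_zero]
  intro v hv
  have h0 : l v = 0 := by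
    have := congrFun hv 0
    simpa [sliceLin] using this
  have h1 : ∀ j, v (i.succAbove j) = 0 := by
    intro j
    have := congrFun hv j.succ
    simpa [sliceLin] using this
  have h2 : v = v i • Pi.single i (1 : ℂ) := by
    funext k
    by_cases hk : k = i
    · subst hk; simp
    · obtain ⟨j, rfl⟩ := Fin.exists_succAbove_eq hk
      simp [h1 j, Pi.single_apply, hk]
  have h3 : v i = 0 := by
    rw [h2, map_smul, smul_eq_mul] at h0
    exact (mul_eq_zero.mp h0).resolve_right h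
  rw [h2, h3, zero_smul]

/-- local parametrisation of a smooth hypersurface -/
theorem exists_patch {n : ℕ} {Ω : Set (Cm (n + 1))} (hΩ : IsOpen Ω) {f : Cm (n + 1) → ℂ}
    {p : Cm (n + 1)} (hp : p ∈ Ω) (hf : AnalyticAt ℂ f p) (h1 : fderiv ℂ f p ≠ 0) :
    ∃ (N : Set (Cm (n + 1))) (W : Set (Cm n)) (g : Cm n → Cm (n + 1)), IsOpen N ∧ p ∈ N ∧
      IsOpen W ∧ (∀ q ∈ W, AnalyticAt ℂ g q ∧ g q ∈ Ω) ∧
      ∀ z ∈ N, f z = 0 → z ∈ g '' W := by
  obtain ⟨i, hi⟩ : ∃ i, fderiv ℂ f p (Pi.single i 1) ≠ 0 := by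
    by_contra hcon
    push Not at hcon
    apply h1
    ext v
    have h2 : v = ∑ j, v j • (Pi.single j (1 : ℂ) : Cm (n + 1)) := by
      funext k
      simp [Finset.sum_apply, Pi.single_apply]
    rw [h2]
    simp [map_sum, map_smul, hcon]
  let L : Cm (n + 1) ≃L[ℂ] Cm (n + 1) :=
    (LinearEquiv.ofInjectiveEndo (sliceLin (fderiv ℂ f p) i).toLinearMap
      (sliceLin_injective hi)).toContinuousLinearEquiv
  have hL : (L : Cm (n + 1) →L[ℂ] Cm (n + 1)) = sliceLin (fderiv ℂ f p) i := by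
    ext v : 1
    rfl
  have hΦ : ContDiffAt ℂ ω (sliceMap f i) p := by
    rw [contDiffAt_pi]
    intro j
    refine Fin.cases ?_ (fun j => ?_) j
    · simpa [sliceMap] using hf.contDiffAt
    · simp only [sliceMap, Fin.cons_succ]
      exact (contDiff_apply ℂ ℂ (i.succAbove j)).contDiffAt
  have hΦ' : HasFDerivAt (sliceMap f i) (L : Cm (n + 1) →L[ℂ] Cm (n + 1)) p := by
    rw [hL, hasFDerivAt_pi']
    intro j
    refine Fin.cases ?_ (fun j => ?_) j
    · simp only [sliceMap, Fin.cons_zero]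
      have : (ContinuousLinearMap.proj (R := ℂ) (φ := fun _ : Fin (n + 1) => ℂ) 0).comp
          (sliceLin (fderiv ℂ f p) i) = fderiv ℂ f p := by
        ext v; simp [sliceLin]
      rw [this]
      exact hf.differentiableAt.hasFDerivAt
    · simp only [sliceMap, Fin.cons_succ]
      have : (ContinuousLinearMap.proj (R := ℂ) (φ := fun _ : Fin (n + 1) => ℂ) j.succ).comp
          (sliceLin (fderiv ℂ f p) i) = ContinuousLinearMap.proj (i.succAbove j) := by
        ext v; simp [sliceLin]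
      rw [this]
      exact (ContinuousLinearMap.proj (R := ℂ) (φ := fun _ : Fin (n + 1) => ℂ)
        (i.succAbove j)).hasFDerivAt
  let Φ := hΦ.toOpenPartialHomeomorph (sliceMap f i) hΦ' (by simp)
  have hps : p ∈ Φ.source := hΦ.mem_toOpenPartialHomeomorph_source hΦ' (by simp)
  have hcoe : (Φ : Cm (n + 1) → Cm (n + 1)) = sliceMap f i := rfl
  have hsymm : ContDiffAt ℂ ω Φ.symm (sliceMap f i p) := hΦ.to_localInverse hΦ' (by simp)
  -- the domain of the parametrisation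
  let T : Set (Cm (n + 1)) := Φ.target ∩ {w | AnalyticAt ℂ Φ.symm w} ∩ Φ.symm ⁻¹' Ω
  let T' : Set (Cm (n + 1)) := {w | w ∈ Φ.target ∧ AnalyticAt ℂ Φ.symm w ∧ Φ.symm w ∈ Ω}
  have hT' : IsOpen T' := by
    rw [isOpen_iff_mem_nhds]
    intro w hw
    have h2 : ∀ᶠ u in 𝓝 w, u ∈ Φ.target := Φ.open_target.mem_nhds hw.1
    have h3 : ∀ᶠ u in 𝓝 w, AnalyticAt ℂ Φ.symm u := hw.2.1.eventually_analyticAt
    have h4 : ∀ᶠ u in 𝓝 w, Φ.symm u ∈ Ω := hw.2.1.continuousAt.eventually (hΩ.mem_nhds hw.2.2)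
    filter_upwards [h2, h3, h4] with u a b c using ⟨a, b, c⟩
  have hcont : Continuous (fun q : Cm n => (Fin.cons (0 : ℂ) q : Cm (n + 1))) := by
    refine continuous_pi fun j => ?_
    refine Fin.cases ?_ (fun j => ?_) j
    · simp only [Fin.cons_zero]; exact continuous_const
    · simp only [Fin.cons_succ]; exact continuous_apply j
  let W : Set (Cm n) := (fun q : Cm n => (Fin.cons (0 : ℂ) q : Cm (n + 1))) ⁻¹' T'
  let g : Cm n → Cm (n + 1) := fun q => Φ.symm (Fin.cons (0 : ℂ) q)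
  let N : Set (Cm (n + 1)) := Φ.source ∩ Φ ⁻¹' T'
  have hN : IsOpen N := Φ.isOpen_inter_preimage hT'
  refine ⟨N, W, g, hN, ⟨hps, ?_⟩, hT'.preimage hcont, ?_, ?_⟩
  · refine ⟨Φ.map_source hps, hsymm.analyticAt, ?_⟩
    rw [Φ.left_inv hps]
    exact hp
  · intro q hq
    refine ⟨?_, hq.2.2⟩
    have h5 : AnalyticAt ℂ (fun q : Cm n => (Fin.cons (0 : ℂ) q : Cm (n + 1))) q := by
      rw [analyticAt_pi_iff]
      intro j
      refine Fin.cases ?_ (fun j => ?_) j
      · simp only [Fin.cons_zero]; exact analyticAt_const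
      · simp only [Fin.cons_succ]
        exact (ContinuousLinearMap.proj (R := ℂ) (φ := fun _ : Fin n => ℂ) j).analyticAt q
    exact hq.2.1.comp_of_eq h5 rfl
  · intro z hz hfz
    have h6 : (Fin.cons (0 : ℂ) (fun j => z (i.succAbove j)) : Cm (n + 1)) = Φ z := by
      rw [hcoe]; simp only [sliceMap, hfz]
    refine ⟨fun j => z (i.succAbove j), ?_, ?_⟩
    · change (Fin.cons (0 : ℂ) (fun j => z (i.succAbove j)) : Cm (n + 1)) ∈ T'
      rw [h6]
      exact hz.2
    · change Φ.symm (Fin.cons (0 : ℂ) (fun j => z (i.succAbove j)) : Cm (n + 1)) = z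
      rw [h6, Φ.left_inv hz.1]

/-- A smooth hypersurface is covered by countably many patches. -/
theorem smooth_cover {n : ℕ} {Ω : Set (Cm (n + 1))} (hΩ : IsOpen Ω) {f : Cm (n + 1) → ℂ}
    (hf : ∀ z ∈ Ω, AnalyticAt ℂ f z) :
    ∃ (W : ℕ → Set (Cm n)) (g : ℕ → Cm n → Cm (n + 1)), (∀ k, IsOpen (W k)) ∧
      (∀ k, ∀ p ∈ W k, AnalyticAt ℂ (g k) p ∧ g k p ∈ Ω) ∧
      {z | z ∈ Ω ∧ f z = 0 ∧ fderiv ℂ f z ≠ 0} ⊆ ⋃ k, g k '' W k := by
  classical
  set S : Set (Cm (n + 1)) := {z | z ∈ Ω ∧ f z = 0 ∧ fderiv ℂ f z ≠ 0} with hS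
  have key : ∀ p : S, ∃ (N : Set (Cm (n + 1))) (W : Set (Cm n)) (g : Cm n → Cm (n + 1)),
      IsOpen N ∧ (p : Cm (n + 1)) ∈ N ∧
      IsOpen W ∧ (∀ q ∈ W, AnalyticAt ℂ g q ∧ g q ∈ Ω) ∧
      ∀ z ∈ N, f z = 0 → z ∈ g '' W := fun p =>
    exists_patch hΩ p.2.1 (hf _ p.2.1) p.2.2.2
  choose N W g hN hpN hW hg hcov using key
  obtain ⟨T, hT, hTcov⟩ := TopologicalSpace.isOpen_iUnion_countable N hN
  have : Countable T := hT
  rcases isEmpty_or_nonempty T with hem | hne
  · refine ⟨fun _ => ∅, fun _ => 0, fun _ => isOpen_empty, fun k p hp => hp.elim, ?_⟩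
    intro z hz
    have h1 : z ∈ ⋃ p, N p := mem_iUnion.2 ⟨⟨z, hz⟩, hpN ⟨z, hz⟩⟩
    rw [← hTcov] at h1
    simp only [mem_iUnion] at h1
    obtain ⟨p, hp, _⟩ := h1
    exact (hem.false ⟨p, hp⟩).elim
  · obtain ⟨enum, henum⟩ := exists_surjective_nat T
    refine ⟨fun k => W (enum k), fun k => g (enum k), fun k => hW _, fun k p hp => hg _ p hp, ?_⟩
    intro z hz
    have h1 : z ∈ ⋃ p, N p := mem_iUnion.2 ⟨⟨z, hz⟩, hpN ⟨z, hz⟩⟩
    rw [← hTcov] at h1
    simp only [mem_iUnion] at h1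
    obtain ⟨p, hp, hzp⟩ := h1
    obtain ⟨k, hk⟩ := henum ⟨p, hp⟩
    refine mem_iUnion.2 ⟨k, ?_⟩
    show z ∈ g (enum k) '' W (enum k)
    rw [hk]
    exact hcov p z hzp hz.2.1

/-- iterated derivatives in the direction `y` -/
def dirD {n : ℕ} (J : Cm n → ℂ) (y : Cm n) : ℕ → Cm n → ℂ
  | 0 => J
  | m + 1 => fun z => fderiv ℂ (dirD J y m) z y

theorem analyticAt_dirD {n : ℕ} {J : Cm n → ℂ} {z : Cm n} (h : AnalyticAt ℂ J z) (y : Cm n)
    (m : ℕ) : AnalyticAt ℂ (dirD J y m) z := by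
  induction m with
  | zero => exact h
  | succ m ih =>
    have h1 : AnalyticAt ℂ (fderiv ℂ (dirD J y m)) z := ih.fderiv
    exact (ContinuousLinearMap.apply ℂ ℂ y).analyticAt _ |>.comp_of_eq h1 rfl

theorem iteratedDeriv_line {n : ℕ} {J : Cm n → ℂ} {Ω : Set (Cm n)} (hΩ : IsOpen Ω)
    (hJ : ∀ z ∈ Ω, AnalyticAt ℂ J z) (p y : Cm n) (m : ℕ) :
    ∀ t : ℂ, p + t • y ∈ Ω →
      iteratedDeriv m (fun s : ℂ => J (p + s • y)) t = dirD J y m (p + t • y) := by
  induction m with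
  | zero => intro t _; simp [dirD]
  | succ m ih =>
    intro t ht
    rw [iteratedDeriv_succ]
    have hcont : Continuous fun s : ℂ => p + s • y := by fun_prop
    have h1 : iteratedDeriv m (fun s : ℂ => J (p + s • y)) =ᶠ[𝓝 t]
        fun s => dirD J y m (p + s • y) := by
      filter_upwards [hcont.continuousAt.eventually (hΩ.mem_nhds ht)] with s hs using ih s hs
    rw [h1.deriv_eq]
    have h2 : HasDerivAt (fun s : ℂ => p + s • y) y t := by
      simpa using ((hasDerivAt_id t).smul_const y).const_add p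
    have h3 : HasFDerivAt (dirD J y m) (fderiv ℂ (dirD J y m) (p + t • y)) (p + t • y) :=
      (analyticAt_dirD (hJ _ ht) y m).differentiableAt.hasFDerivAt
    have h4 := h3.comp_hasDerivAt t h2
    exact h4.deriv

theorem exists_dirD {n : ℕ} {J : Cm n → ℂ} {Ω : Set (Cm n)} (hΩ : IsOpen Ω)
    (hJ : ∀ z ∈ Ω, AnalyticAt ℂ J z) {p : Cm n} (hp : p ∈ Ω) (hne : ¬ J =ᶠ[𝓝 p] 0)
    (h0 : J p = 0) :
    ∃ l m : ℕ, dirD J (TopologicalSpace.denseSeq (Cm n) l) m p = 0 ∧
      fderiv ℂ (dirD J (TopologicalSpace.denseSeq (Cm n) l) m) p ≠ 0 := by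
  obtain ⟨r, hr, hball⟩ := Metric.isOpen_iff.1 hΩ p hp
  -- a point of the ball where `J` does not vanish
  have h1 : ∃ q ∈ Metric.ball p r, J q ≠ 0 := by
    by_contra hcon
    push Not at hcon
    exact hne (Filter.eventually_of_mem (Metric.ball_mem_nhds p hr) hcon)
  obtain ⟨q, hq, hJq⟩ := h1
  have h2 : ∀ᶠ q' in 𝓝 q, q' ∈ Metric.ball p r ∧ J q' ≠ 0 :=
    Filter.Eventually.and (Metric.isOpen_ball.mem_nhds hq)
      ((hJ q (hball hq)).continuousAt.eventually_ne hJq)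
  have h3 : ∀ᶠ y in 𝓝 (q - p), p + y ∈ Metric.ball p r ∧ J (p + y) ≠ 0 := by
    have : Filter.Tendsto (fun y => p + y) (𝓝 (q - p)) (𝓝 q) := by
      have h := (show Continuous fun y : Cm n => p + y by fun_prop).tendsto (q - p)
      simpa using h
    exact this.eventually h2
  obtain ⟨U, hU, hUo, hqU⟩ := eventually_nhds_iff.1 h3
  obtain ⟨_, ⟨hyU, ⟨l, rfl⟩⟩⟩ := (TopologicalSpace.denseRange_denseSeq (Cm n)).inter_open_nonempty
    U hUo ⟨_, hqU⟩
  set y := TopologicalSpace.denseSeq (Cm n) l with hy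
  obtain ⟨hyball, hyJ⟩ := hU y hyU
  -- restrict to the line
  set φ : ℂ → ℂ := fun s => J (p + s • y) with hφ
  have hcont : Continuous fun s : ℂ => p + s • y := by fun_prop
  set A : Set ℂ := {s | p + s • y ∈ Metric.ball p r} with hA
  have hAn : AnalyticOnNhd ℂ φ A := by
    intro s hs
    have h4 : AnalyticAt ℂ (fun s : ℂ => p + s • y) s := by
      refine analyticAt_const.add ?_
      exact (analyticAt_id).smul analyticAt_const
    exact (hJ _ (hball hs)).comp_of_eq h4 rfl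
  have hApre : IsPreconnected A := by
    have : Convex ℝ A := by
      have h5 : A = (fun s : ℂ => p + s • y) ⁻¹' Metric.ball p r := rfl
      intro a ha b hb u v hu hv huv
      have := (convex_ball p r) (show p + a • y ∈ Metric.ball p r from ha)
        (show p + b • y ∈ Metric.ball p r from hb) hu hv huv
      show p + (u • a + v • b) • y ∈ Metric.ball p r
      convert this using 1
      have h6 : p = (u : ℂ) • p + (v : ℂ) • p := by
        rw [← add_smul]
        have : ((u : ℂ) + v) = 1 := by exact_mod_cast huv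
        rw [this, one_smul]
      have h7 : ∀ (c : ℝ) (x : Cm n), c • x = (c : ℂ) • x := fun c x => by
        ext i; simp
      have h8 : ∀ (c : ℝ) (x : ℂ), c • x = (c : ℂ) * x := fun c x => by simp
      rw [h7, h7, h8, h8, smul_add, smul_add, add_smul, mul_smul, mul_smul]
      nth_rewrite 1 [h6]
      abel
    exact this.isPreconnected
  have h0A : (0 : ℂ) ∈ A := by simp [hA, hr]
  have h1A : (1 : ℂ) ∈ A := by
    show p + (1 : ℂ) • y ∈ Metric.ball p r
    rw [one_smul]; exact hyball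
  have hφ1 : φ 1 ≠ 0 := by
    simp only [hφ, one_smul]
    exact hyJ
  have hφne : ¬ φ =ᶠ[𝓝 0] 0 := by
    intro h
    exact hφ1 (hAn.eqOn_zero_of_preconnected_of_eventuallyEq_zero hApre h0A h h1A)
  have hord : analyticOrderAt φ 0 ≠ ⊤ := by
    intro h
    exact hφne (analyticOrderAt_eq_top.1 h)
  -- some derivative does not vanish
  have hex : ∃ m, dirD J y m p ≠ 0 := by
    by_contra hcon
    push Not at hcon
    apply hord
    rw [ENat.eq_top_iff_forall_ge]
    intro m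
    rw [natCast_le_analyticOrderAt_iff_iteratedDeriv_eq_zero (hAn 0 h0A)]
    intro i _
    have := iteratedDeriv_line hΩ hJ p y i 0 (by simpa using hp)
    rw [this]
    simpa using hcon i
  classical
  have hfind := Nat.find_spec hex
  have hmin := fun k (hk : k < Nat.find hex) => Nat.find_min hex hk
  have hpos : Nat.find hex ≠ 0 := by
    intro h
    rw [h] at hfind
    exact hfind h0
  obtain ⟨m, hm⟩ := Nat.exists_eq_succ_of_ne_zero hpos
  refine ⟨l, m, ?_, ?_⟩
  · have := hmin m (by omega)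
    push Not at this
    exact this
  · intro h
    rw [hm] at hfind
    apply hfind
    show fderiv ℂ (dirD J y m) p y = 0
    rw [h]
    rfl

theorem stB1 : StB1 := by
  intro n Ω J hΩ hJ hne
  have key : ∀ c : ℕ × ℕ, ∃ (W : ℕ → Set (Cm n)) (g : ℕ → Cm n → Cm (n + 1)),
      (∀ k, IsOpen (W k)) ∧
      (∀ k, ∀ p ∈ W k, AnalyticAt ℂ (g k) p ∧ g k p ∈ Ω) ∧
      {z | z ∈ Ω ∧ dirD J (TopologicalSpace.denseSeq (Cm (n + 1)) c.1) c.2 z = 0 ∧
        fderiv ℂ (dirD J (TopologicalSpace.denseSeq (Cm (n + 1)) c.1) c.2) z ≠ 0} ⊆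
        ⋃ k, g k '' W k := fun c =>
    smooth_cover hΩ fun z hz => analyticAt_dirD (hJ z hz) _ _
  choose W g hW hg hcov using key
  refine ⟨fun k => W (Nat.unpair (Nat.unpair k).1) (Nat.unpair k).2,
    fun k => g (Nat.unpair (Nat.unpair k).1) (Nat.unpair k).2, fun k => hW _ _,
    fun k p hp => hg _ _ p hp, ?_⟩
  intro z hz
  obtain ⟨l, m, h1, h2⟩ := exists_dirD hΩ hJ hz.1 (hne z hz.1) hz.2
  have h3 := hcov (l, m) ⟨hz.1, h1, h2⟩
  simp only [mem_iUnion] at h3 ⊢
  obtain ⟨k, hk⟩ := h3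
  refine ⟨Nat.pair (Nat.pair l m) k, ?_⟩
  simpa using hk

end Vale.Agent.P277.H622
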