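import Vale.Agent.P277.Stmts
import Mathlib.Topology.MetricSpace.HausdorffDimension
import Mathlib.Analysis.Calculus.ContDiff.RCLike

/-!
# P277, package B2: complements of thin sets in balls of `ℂ⁴` are connected and dense
-/

open scoped Manifold ContDiff Topology
open Vale.Agent.P272.K Set Filter

noncomputable section

namespace Vale.Agent.P277.H622

/-- the image of an open set of a space of dimension `≤ d` under a `C¹` map has `dimH ≤ d` -/
theorem dimH_image_open_le {E F : Type*} [NormedAddCommGroup E] [NormedSpace ℝ E]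
    [FiniteDimensional ℝ E] [NormedAddCommGroup F] [NormedSpace ℝ F] {f : E → F} {W : Set E}
    (hW : IsOpen W) (hf : ContDiffOn ℝ 1 f W) :
    dimH (f '' W) ≤ Module.finrank ℝ E := by
  have h1 : dimH (f '' W) ≤ dimH W := by
    refine dimH_image_le_of_locally_lipschitzOn fun x hx => ?_
    have h2 : ContDiffAt ℝ 1 f x := hf.contDiffAt (hW.mem_nhds hx)
    obtain ⟨K, t, ht, hL⟩ := h2.exists_lipschitzOnWith
    exact ⟨K, t, mem_nhdsWithin_of_mem_nhds ht, hL⟩
  refine h1.trans ((dimH_mono (subset_univ W)).trans ?_)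
  exact (Real.dimH_univ_eq_finrank E).le

/-- union of images of open sets of dimension `≤ 7` in `ℂ⁴` -/
theorem dense_compl_iUnion {E : ℕ → Type} [∀ k, NormedAddCommGroup (E k)]
    [∀ k, NormedSpace ℝ (E k)] [∀ k, FiniteDimensional ℝ (E k)]
    (hE : ∀ k, Module.finrank ℝ (E k) ≤ 7) (f : ∀ k, E k → Cm 4) (W : ∀ k, Set (E k))
    (hW : ∀ k, IsOpen (W k)) (hf : ∀ k, ContDiffOn ℝ 1 (f k) (W k)) :
    Dense (⋃ k, f k '' W k)ᶜ := by
  refine dense_compl_of_dimH_lt_finrank ?_
  rw [dimH_iUnion]
  have h1 : Module.finrank ℝ (Cm 4) = 8 := by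
    rw [Module.finrank_pi_fintype ℝ]
    simp [Complex.finrank_real_complex]
  rw [h1]
  refine lt_of_le_of_lt (iSup_le fun k => ?_) (show ((7 : ℕ) : ENNReal) < ((8 : ℕ) : ENNReal) by
    exact_mod_cast (by norm_num : (7:ℕ) < 8))
  exact (dimH_image_open_le (hW k) (hf k)).trans (by exact_mod_cast hE k)

theorem finrank_Cm3 : Module.finrank ℝ (Cm 3) = 6 := by
  rw [Module.finrank_pi_fintype ℝ]
  simp [Complex.finrank_real_complex]

theorem stB2 : StB2 := by
  intro c r W g hr hW hg
  set E : Set (Cm 4) := ⋃ k, g k '' W k with hE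
  have hdense : Dense Eᶜ := by
    refine dense_compl_iUnion (E := fun _ => Cm 3) (fun k => ?_) g W hW hg
    rw [finrank_Cm3]; norm_num
  constructor
  · refine isPreconnected_of_forall_pair fun p hp q hq => ?_
    -- the bad set of `p`
    have hbad : ∀ p : Cm 4, Dense (⋃ k, (fun ut : Cm 3 × ℝ => p + ut.2 • (g k ut.1 - p)) ''
        (W k ×ˢ (univ : Set ℝ)))ᶜ := by
      intro p
      refine dense_compl_iUnion (E := fun _ => Cm 3 × ℝ) (fun k => ?_) _ _
        (fun k => (hW k).prod isOpen_univ) fun k => ?_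
      · rw [Module.finrank_prod, finrank_Cm3]; simp
      · have h1 : ContDiffOn ℝ 1 (fun ut : Cm 3 × ℝ => g k ut.1) (W k ×ˢ (univ : Set ℝ)) :=
          (hg k).comp contDiff_fst.contDiffOn fun x hx => hx.1
        exact contDiffOn_const.add (contDiff_snd.contDiffOn.smul (h1.sub contDiffOn_const))
    -- both bad sets at once
    have hboth : ∃ x ∈ Metric.ball c r, (∀ t : ℝ, t ∈ Icc (0 : ℝ) 1 → p + t • (x - p) ∉ E) ∧
        ∀ t : ℝ, t ∈ Icc (0 : ℝ) 1 → q + t • (x - q) ∉ E := by
      have h2 : Dense (⋃ k : ℕ, (fun ut : Cm 3 × ℝ =>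
          (if k % 2 = 0 then p else q) + ut.2 • (g (k / 2) ut.1 - (if k % 2 = 0 then p else q))) ''
          (W (k / 2) ×ˢ (univ : Set ℝ)))ᶜ := by
        refine dense_compl_iUnion (E := fun _ => Cm 3 × ℝ) (fun k => ?_) _ _
          (fun k => (hW _).prod isOpen_univ) fun k => ?_
        · rw [Module.finrank_prod, finrank_Cm3]; simp
        · have h1 : ContDiffOn ℝ 1 (fun ut : Cm 3 × ℝ => g (k / 2) ut.1)
              (W (k / 2) ×ˢ (univ : Set ℝ)) :=
            (hg _).comp contDiff_fst.contDiffOn fun x hx => hx.1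
          exact contDiffOn_const.add (contDiff_snd.contDiffOn.smul (h1.sub contDiffOn_const))
      obtain ⟨x, hx, hxn⟩ := h2.inter_open_nonempty (Metric.ball c r) Metric.isOpen_ball
        ⟨c, Metric.mem_ball_self hr⟩
      refine ⟨x, hx, fun t ht hmem => ?_, fun t ht hmem => ?_⟩
      · -- t ≠ 0
        have ht0 : t ≠ 0 := by
          rintro rfl
          simp only [zero_smul, add_zero] at hmem
          exact hp.2 hmem
        rw [hE] at hmem
        simp only [mem_iUnion] at hmem
        obtain ⟨k, u, hu, hgu⟩ := hmem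
        apply hxn
        refine mem_iUnion.2 ⟨2 * k, (u, t⁻¹), ⟨?_, mem_univ _⟩, ?_⟩
        · have : 2 * k / 2 = k := by omega
          rw [this]; exact hu
        · have h3 : 2 * k / 2 = k := by omega
          have h4 : 2 * k % 2 = 0 := by omega
          simp only [h3, h4, if_true, hgu]
          rw [add_sub_cancel_left, smul_smul, inv_mul_cancel₀ ht0, one_smul]
          abel
      · have ht0 : t ≠ 0 := by
          rintro rfl
          simp only [zero_smul, add_zero] at hmem
          exact hq.2 hmem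
        rw [hE] at hmem
        simp only [mem_iUnion] at hmem
        obtain ⟨k, u, hu, hgu⟩ := hmem
        apply hxn
        refine mem_iUnion.2 ⟨2 * k + 1, (u, t⁻¹), ⟨?_, mem_univ _⟩, ?_⟩
        · have : (2 * k + 1) / 2 = k := by omega
          rw [this]; exact hu
        · have h3 : (2 * k + 1) / 2 = k := by omega
          have h4 : ¬ ((2 * k + 1) % 2 = 0) := by omega
          simp only [h3, h4, if_false, hgu]
          rw [add_sub_cancel_left, smul_smul, inv_mul_cancel₀ ht0, one_smul]
          abel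
    obtain ⟨x, hx, h1, h2⟩ := hboth
    have hseg : ∀ p ∈ Metric.ball c r, (∀ t : ℝ, t ∈ Icc (0 : ℝ) 1 → p + t • (x - p) ∉ E) →
        segment ℝ p x ⊆ Metric.ball c r \ E := by
      intro p hp h z hz
      rw [segment_eq_image'] at hz
      obtain ⟨t, ht, rfl⟩ := hz
      refine ⟨?_, h t ht⟩
      have := (convex_ball c r).segment_subset hp hx
      apply this
      rw [segment_eq_image']
      exact ⟨t, ht, rfl⟩
    refine ⟨segment ℝ p x ∪ segment ℝ q x, union_subset (hseg p hp.1 h1) (hseg q hq.1 h2),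
      Or.inl (left_mem_segment ℝ p x), Or.inr (left_mem_segment ℝ q x), ?_⟩
    exact IsPreconnected.union x (right_mem_segment ℝ p x) (right_mem_segment ℝ q x)
      (convex_segment p x).isPreconnected (convex_segment q x).isPreconnected
  · have h1 := hdense.open_subset_closure_inter (Metric.isOpen_ball (x := c) (ε := r))
    rwa [← diff_eq] at h1

end Vale.Agent.P277.H622
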