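import Vale.Agent.P277.Stmts

/-!
# P277: local facts on complex spaces (continuity, compact neighbourhoods)
-/

open scoped Manifold ContDiff Topology
open Vale.Agent.P272.K Set Filter

noncomputable section

namespace Vale.Agent.P277.H622

section model

variable {X : Type} [TopologicalSpace X] {Hol : (X → ℂ) → X → Prop} {V : Set X} {N k : ℕ}
  {Ω : Set (Cm N)} {h : Fin k → Cm N → ℂ} {φ : X → Cm N}

theorem continuousAt_model (H : IsModel Hol V Ω h φ) {x : X} (hx : x ∈ V) :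
    ContinuousAt φ x := by
  have h1 : ContinuousOn φ V := by
    rw [continuousOn_iff_continuous_restrict]
    exact H.emb.continuous
  exact h1.continuousAt (H.isOpen.mem_nhds hx)

theorem injOn_model (H : IsModel Hol V Ω h φ) : InjOn φ V := by
  intro a ha b hb hab
  have := H.emb.injective (a₁ := ⟨a, ha⟩) (a₂ := ⟨b, hb⟩) hab
  exact congrArg Subtype.val this

theorem mapsTo_model (H : IsModel Hol V Ω h φ) {x : X} (hx : x ∈ V) :
    φ x ∈ Ω ∧ ∀ i, h i (φ x) = 0 := by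
  have : φ x ∈ φ '' V := mem_image_of_mem φ hx
  rw [H.image] at this
  exact this

/-- in a model, a set is a neighbourhood of `x` if it contains a small ball -/
theorem exists_ball_subset (H : IsModel Hol V Ω h φ) {x : X} (hx : x ∈ V) {W : Set X}
    (hW : W ∈ 𝓝 x) : ∃ r > 0, ∀ y ∈ V, dist (φ y) (φ x) ≤ r → y ∈ W := by
  have h1 : (fun y : V => (y : X)) ⁻¹' W ∈ 𝓝 (⟨x, hx⟩ : V) :=
    continuous_subtype_val.continuousAt.preimage_mem_nhds hW
  rw [H.emb.nhds_eq_comap] at h1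
  obtain ⟨T, hT, hTs⟩ := Filter.mem_comap.1 h1
  obtain ⟨r, hr, hrT⟩ := Metric.mem_nhds_iff.1 hT
  refine ⟨r / 2, by positivity, fun y hy hd => ?_⟩
  have h2 : (⟨y, hy⟩ : V) ∈ V.domRestrict φ ⁻¹' T := by
    apply hrT
    show dist (φ y) (φ x) < r
    linarith
  exact hTs h2

/-- small closed balls in a model are compact -/
theorem isCompact_ball (H : IsModel Hol V Ω h φ) {x : X} (_ : x ∈ V) {r : ℝ}
    (hr : Metric.closedBall (φ x) r ⊆ Ω) : IsCompact {y | y ∈ V ∧ dist (φ y) (φ x) ≤ r} := by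
  have h1 : IsCompact {z | z ∈ Metric.closedBall (φ x) r ∧ ∀ i, h i z = 0} := by
    have h2 : IsCompact (Metric.closedBall (φ x) r) := isCompact_closedBall _ _
    have h3 : {z | z ∈ Metric.closedBall (φ x) r ∧ ∀ i, h i z = 0} =
        Metric.closedBall (φ x) r ∩ ⋂ i, {z | z ∈ Metric.closedBall (φ x) r ∧ h i z = 0} := by
      ext z
      simp only [mem_setOf_eq, mem_inter_iff, mem_iInter]
      constructor
      · rintro ⟨a, b⟩; exact ⟨a, fun i => ⟨a, b i⟩⟩
      · rintro ⟨a, b⟩; exact ⟨a, fun i => (b i).2⟩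
    rw [h3]
    refine h2.inter_right (isClosed_iInter fun i => ?_)
    have h4 : ContinuousOn (h i) (Metric.closedBall (φ x) r) := fun z hz =>
      (H.holo i z (hr hz)).continuousAt.continuousWithinAt
    have h5 := h4.preimage_isClosed_of_isClosed Metric.isClosed_closedBall
      (isClosed_singleton (x := (0 : ℂ)))
    exact h5
  have h2 : IsCompact {y : V | dist (φ y) (φ x) ≤ r} := by
    rw [H.emb.isCompact_iff]
    convert h1 using 1
    ext z
    constructor
    · rintro ⟨y, hy, rfl⟩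
      exact ⟨hy, (mapsTo_model H y.2).2⟩
    · rintro ⟨hz, hz'⟩
      have : z ∈ φ '' V := by rw [H.image]; exact ⟨hr hz, hz'⟩
      obtain ⟨y, hy, rfl⟩ := this
      exact ⟨⟨y, hy⟩, hz, rfl⟩
  have h3 := h2.image continuous_subtype_val
  convert h3 using 1
  ext y
  constructor
  · rintro ⟨a, b⟩; exact ⟨⟨y, a⟩, b, rfl⟩
  · rintro ⟨y', hy', rfl⟩; exact ⟨y'.2, hy'⟩

end model

/-- holomorphic functions are continuous -/
theorem hol_continuousAt {X : CSp} {f : X.pt → ℂ} {x : X.pt} (hf : X.Hol f x) :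
    ContinuousAt f x := by
  obtain ⟨N, k, V, Ω, h, φ, hx, H⟩ := X.model x
  obtain ⟨g, hg, he⟩ := (H.hol x hx f).1 hf
  have h1 : ContinuousAt (g ∘ φ) x :=
    ContinuousAt.comp (hg.continuousAt) (continuousAt_model H hx)
  exact h1.congr he.symm

/-- Compact neighbourhoods of a point given by sublevel sets of a continuous function. -/
theorem exists_exhaustion (X : CSp) {x : X.pt} {V : Set X.pt} (hV : V ∈ 𝓝 x) :
    ∃ (U : Set X.pt) (ρ : X.pt → ℝ) (r₀ : ℝ), IsOpen U ∧ x ∈ U ∧ U ⊆ V ∧ 0 < r₀ ∧ ρ x = 0 ∧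
      (∀ y ∈ U, ContinuousAt ρ y ∧ 0 ≤ ρ y) ∧ (∀ y ∈ U, ρ y = 0 → y = x) ∧
      ∀ r < r₀, IsCompact {y | y ∈ U ∧ ρ y ≤ r} := by
  obtain ⟨N, k, V', Ω, h, φ, hx, H⟩ := X.model x
  obtain ⟨r1, hr1, hb1⟩ := exists_ball_subset H hx hV
  obtain ⟨r2, hr2, hb2⟩ := Metric.isOpen_iff.1 H.isOpen' (φ x) (mapsTo_model H hx).1
  set r₀ := min r1 r2 with hr0
  have hr0' : 0 < r₀ := lt_min hr1 hr2
  have hcont : ∀ y ∈ V', ContinuousAt (fun y => dist (φ y) (φ x)) y := fun y hy =>
    (continuousAt_model H hy).dist continuousAt_const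
  set U : Set X.pt := {y | y ∈ V' ∧ dist (φ y) (φ x) < r₀} with hU
  have hUo : IsOpen U := by
    rw [isOpen_iff_mem_nhds]
    intro y hy
    filter_upwards [H.isOpen.mem_nhds hy.1, (hcont y hy.1).eventually (Iio_mem_nhds hy.2)]
      with z a b using ⟨a, b⟩
  refine ⟨U, fun y => dist (φ y) (φ x), r₀, hUo, ⟨hx, by simpa using hr0'⟩, ?_, hr0', by simp,
    fun y hy => ⟨hcont y hy.1, dist_nonneg⟩, fun y hy h0 => ?_, fun r hr => ?_⟩
  · intro y hy
    exact hb1 y hy.1 (hy.2.le.trans (min_le_left _ _))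
  · exact injOn_model H hy.1 hx (dist_eq_zero.1 h0)
  · have h1 := isCompact_ball H hx (r := r) (fun z hz => hb2 (by
      rw [Metric.mem_ball]
      exact lt_of_le_of_lt (Metric.mem_closedBall.1 hz) (hr.trans_le (min_le_right _ _))))
    convert h1 using 1
    ext y
    constructor
    · rintro ⟨a, b⟩; exact ⟨a.1, b⟩
    · rintro ⟨a, b⟩; exact ⟨⟨a, lt_of_le_of_lt b hr⟩, b⟩

end Vale.Agent.P277.H622
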